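import Vale.Agent.Q008.Main

namespace Vale.Agent.Results.P008.WeylOrder

open Vale.Agent.Q008

/-- Hypothesis (i) forces `p ∤ |W|`; so `p` is very good, and `G` is a torus when `p = 2`. -/
theorem result {ι X Y : Type*} [AddCommGroup X] [AddCommGroup Y] [Finite ι]
    [Module.Finite ℤ X] [Module.Finite ℤ Y] (P : RootDatum ι X Y) [P.IsReduced]
    (k g : Type*) [Field k] [IsAlgClosed k] (p : ℕ) [Fact p.Prime] [CharP k p]
    [LieRing g] [LieAlgebra k g] (L : LieG P k g) (B : LinearMap.BilinForm k g)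
    (H : L.HypI B) :
    Finite P.weylGroup ∧ ¬ p ∣ Nat.card P.weylGroup ∧ VeryGood P p ∧ (p = 2 → IsEmpty ι) := by
  have h1 : ¬ p ∣ Nat.card (WY P) := LieG.not_dvd_card_WY H
  have h2 : ¬ p ∣ Nat.card P.weylGroup := by rwa [card_weyl]
  refine ⟨?_, h2, veryGood_of_not_dvd Fact.out h1, ?_⟩
  · refine Nat.finite_of_card_ne_zero fun h0 => h2 ?_
    rw [h0]; exact dvd_zero p
  · rintro rfl
    exact LieG.isEmpty_of_two H

end Vale.Agent.Results.P008.WeylOrder
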