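import Vale.Agent.Q008.Main
import Vale.Agent.Q008.Wild

namespace Vale.Agent.Results.P008.WildLine

open Vale.Agent.Q008 Matrix

/-- Under hypothesis (i), an `ℓ`-adic representation of rank dividing a power of `|W|` of the
decomposition group at a valuation of residue characteristic `p` with the value group of an
algebraically closed field splits off a Kummer line after a finite unramified extension. -/
theorem result {ι X Y : Type} [AddCommGroup X] [AddCommGroup Y] [Finite ι]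
    [Module.Finite ℤ X] [Module.Finite ℤ Y] (P : RootDatum ι X Y) [P.IsReduced]
    (k g : Type) [Field k] [IsAlgClosed k] (p : ℕ) [Fact p.Prime] [CharP k p]
    [LieRing g] [LieAlgebra k g] (L : LieG P k g) (B : LinearMap.BilinForm k g)
    (H : L.HypI B) (ℓ : ℕ) [Fact ℓ.Prime] (hℓ : ℓ ≠ p)
    (C K Ω : Type) [Field C] [Field K] [Field Ω] [Algebra C K] [Algebra K Ω]
    [IsAlgClosed C] [CharZero C] [IsGalois K Ω] (A : ValuationSubring Ω)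
    (hpA : A.valuation (p : Ω) < 1)
    (hval : ∀ x : K, ∃ c : C,
      A.valuation (algebraMap K Ω x) = A.valuation (algebraMap K Ω (algebraMap C K c)))
    (r N : ℕ) (hr : r ∣ Nat.card P.weylGroup ^ N)
    (ρ : A.decompositionSubgroup K →* GL (Fin r) (PadicAlgCl ℓ)) (hρ : Continuous ρ) :
    ∃ (D' : Subgroup (A.decompositionSubgroup K)) (n : ℕ) (y : Ω)
      (ψ : rootsOfUnity (p ^ n) Ω ≃* rootsOfUnity (p ^ n) (PadicAlgCl ℓ))
      (V₁ V₂ : Submodule (PadicAlgCl ℓ) (Fin r → PadicAlgCl ℓ)),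
      IsOpen (D' : Set (A.decompositionSubgroup K)) ∧ A.inertiaSubgroup K ≤ D' ∧ y ≠ 0 ∧
      (∀ σ ∈ D', σ.1 (y ^ p ^ n) = y ^ p ^ n) ∧ IsCompl V₁ V₂ ∧
      ¬ p ∣ Module.finrank (PadicAlgCl ℓ) V₁ ∧
      (∀ σ ∈ D', (∀ v ∈ V₁, (ρ σ).1 *ᵥ v ∈ V₁) ∧ ∀ v ∈ V₂, (ρ σ).1 *ᵥ v ∈ V₂) ∧
      (∀ σ ∈ A.inertiaSubgroup K, ∃ ζ : rootsOfUnity (p ^ n) Ω, σ.1 y = (ζ.1 : Ω) * y ∧
        ∀ v ∈ V₁, (ρ σ).1 *ᵥ v = ((ψ ζ).1 : PadicAlgCl ℓ) • v) ∧
      ((∃ v : Fin r → PadicAlgCl ℓ, v ≠ 0 ∧ ∀ σ ∈ A.inertiaSubgroup K, (ρ σ).1 *ᵥ v = v) ∨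
        ∃ σ ∈ A.inertiaSubgroup K, σ.1 y ≠ y) := by
  have hp : p.Prime := Fact.out
  have h1 : ¬ p ∣ Nat.card P.weylGroup := by
    rw [card_weyl]; exact LieG.not_dvd_card_WY H
  have h2 : ¬ p ∣ r := fun h => h1 (hp.dvd_of_dvd_pow (h.trans hr))
  have h3 : ‖(p : PadicAlgCl ℓ)‖ = 1 := by
    have := PadicAlgCl.norm_extends ℓ (p : ℚ_[ℓ])
    rw [map_natCast] at this
    rw [this, Padic.norm_natCast_eq_one_iff]
    exact (Nat.coprime_primes Fact.out hp).mpr hℓ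
  obtain ⟨D', n, y, ψ, V₁, V₂, a1, a2, a3, a4, a5, a6, a7, a8⟩ :=
    wild_line A hpA hval h3 h2 ρ hρ
  refine ⟨D', n, y, ψ, V₁, V₂, a1, a2, a3, a4, a5, a6, a7, a8, ?_⟩
  by_cases hy : ∃ σ ∈ A.inertiaSubgroup K, σ.1 y ≠ y
  · exact Or.inr hy
  push Not at hy
  have hne : V₁ ≠ ⊥ := by
    rintro rfl
    exact a6 (by simp)
  obtain ⟨v, hv, hv0⟩ := (Submodule.ne_bot_iff _).mp hne
  refine Or.inl ⟨v, hv0, fun σ hσ => ?_⟩
  obtain ⟨ζ, hζ, hζ'⟩ := a8 σ hσ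
  have : ζ = 1 := by
    rw [hy σ hσ] at hζ
    have h4 : (ζ.1 : Ω) = 1 := mul_right_cancel₀ a3 (hζ.symm.trans (one_mul y).symm)
    exact Subtype.ext (Units.ext h4)
  rw [hζ' v hv, this, map_one]
  simp

end Vale.Agent.Results.P008.WildLine
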